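import Crest.Agent.X212.Sob92.Bas
import Crest.Agent.X212.Prm93.Js
import Crest.Agent.X212.Sob92.Bil

-- ▼ part X212/Prm93/Bk
section

/-!
# X212 / Prm93 / Bk (helper93): the normed space `B F k N` of `Cb` functions with the `C^k` norm

`toB F k f`; continuous (bi)linear operations; `contDiffOn_toB`: a jointly smooth family that is
constant in the parameter outside a compact set is a smooth map to `B F k N`.
-/

set_option autoImplicit false
set_option linter.unusedSectionVars false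
noncomputable section
open scoped Manifold ContDiff Topology BoundedContinuousFunction
open Set Filter Function

namespace Crest.Agent.X212.Prm93
open An Sob92

variable {E : Type} [NormedAddCommGroup E] [NormedSpace ℝ E] [FiniteDimensional ℝ E]
  [MeasurableSpace E] [BorelSpace E]
  {HM : Type} [TopologicalSpace HM] {I : ModelWithCorners ℝ E HM}
  {M : Type} [TopologicalSpace M] [ChartedSpace HM M] [IsManifold I ∞ M]
  [MeasurableSpace M] {ι : Type} [Fintype ι]
  {N N' N'' : Type} [NormedAddCommGroup N] [NormedSpace ℝ N] [NormedAddCommGroup N']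
  [NormedSpace ℝ N'] [NormedAddCommGroup N''] [NormedSpace ℝ N'']
  {T : Type} [NormedAddCommGroup T] [NormedSpace ℝ T] {F : Pre I M ι} {k j : ℕ}

theorem Dw_clm (L : N →L[ℝ] N') (w : List ι) : ∀ {u : M → N}, Sm I u →
    F.Dw w (fun x => L (u x)) = fun x => L (F.Dw w u x) := by
  induction w with
  | nil => exact fun _ => rfl
  | cons a w ih =>
    intro u hu
    have : F.D a (fun x => L (u x)) = fun x => L (F.D a u x) :=
      funext fun x => dv_clm L (hu.mdifferentiableAt (by simp))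
    rw [Pre.Dw, this, ih (F.sm_D hu a)]; rfl

theorem Dw_add (w : List ι) : ∀ {u v : M → N}, Sm I u → Sm I v →
    F.Dw w (u + v) = F.Dw w u + F.Dw w v := by
  induction w with
  | nil => exact fun _ _ => rfl
  | cons a w ih =>
    intro u v hu hv
    rw [Pre.Dw, F.D_add hu hv, ih (F.sm_D hu a) (F.sm_D hv a)]; rfl

theorem Dw_smul (c : ℝ) (w : List ι) {u : M → N} (hu : Sm I u) : F.Dw w (c • u) = c • F.Dw w u :=
  Dw_clm (c • ContinuousLinearMap.id ℝ N) w hu

theorem Dw_congr (w : List ι) : ∀ {u v : M → N} {x : M}, u =ᶠ[𝓝 x] v → F.Dw w u x = F.Dw w v x := by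
  induction w with
  | nil => exact fun h => h.self_of_nhds
  | cons a w ih => exact fun h => ih (h.eventuallyEq_nhds.mono fun _ hy => dv_congr hy)

theorem Cb.sm {f : M → N} (h : F.Cb f) : Sm I f := h.choose_spec.1

/-- smooth functions with bounded derivatives -/
def CbS (F : Pre I M ι) (N : Type) [NormedAddCommGroup N] [NormedSpace ℝ N] :
    Submodule ℝ (M → N) where
  carrier := {f | F.Cb f}
  add_mem' := Cb_add
  zero_mem' := Cb_const 0
  smul_mem' := fun c _ hf => Cb_smul (Cb_const c) hf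

/-- `CbS F N` with the `C^k` norm -/
@[nolint unusedArguments]
def B (F : Pre I M ι) (_k : ℕ) (N : Type) [NormedAddCommGroup N] [NormedSpace ℝ N] : Type :=
  CbS F N

/-- words of length `≤ k` -/
abbrev Wd (ι : Type) (k : ℕ) : Type := {w : List ι // w.length ≤ k}

instance : Fintype (Wd ι k) := (List.finite_length_le ι k).fintype

namespace B
instance : AddCommGroup (B F k N) := inferInstanceAs (AddCommGroup (CbS F N))
instance : Module ℝ (B F k N) := inferInstanceAs (Module ℝ (CbS F N))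

/-- the underlying function -/
def fn : B F k N →ₗ[ℝ] M → N := (CbS F N).subtype

theorem cb (f : B F k N) : F.Cb (fn f) := (show CbS F N from f).2
theorem sm (f : B F k N) : Sm I (fn f) := Cb.sm f.cb
theorem fn_inj : Injective (fn : B F k N → M → N) := Subtype.val_injective
/-- constructor -/
def mk (k : ℕ) (f : M → N) (h : F.Cb f) : B F k N := (⟨f, h⟩ : CbS F N)
@[simp] theorem fn_mk (f : M → N) (h : F.Cb f) : fn (mk k f h) = f := rfl

/-- all derivatives of order `≤ k` -/
def jet : B F k N →ₗ[ℝ] Wd ι k → M →ᵇ N where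
  toFun f w := BoundedContinuousFunction.ofNormedAddCommGroup (F.Dw w.1 (fn f))
    (sm_Dw f.sm w.1).continuous (f.cb.choose k) (f.cb.choose_spec.2 k w.1 w.2)
  map_add' f g := funext fun w => BoundedContinuousFunction.ext fun x =>
    congrFun (Dw_add w.1 f.sm g.sm) x
  map_smul' c f := funext fun w => BoundedContinuousFunction.ext fun x =>
    congrFun (Dw_smul c w.1 f.sm) x

theorem jet_apply (f : B F k N) (w : Wd ι k) (x : M) : jet f w x = F.Dw w.1 (fn f) x := rfl

theorem jet_inj : Injective (jet : B F k N → Wd ι k → M →ᵇ N) := fun _ _ h =>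
  fn_inj (funext fun x => congrArg (fun J => J ⟨[], Nat.zero_le k⟩ x) h)

instance : NormedAddCommGroup (B F k N) := NormedAddCommGroup.induced _ _ jet jet_inj
instance : NormedSpace ℝ (B F k N) := NormedSpace.induced ℝ _ _ jet

theorem norm_le {f : B F k N} {C : ℝ} (hC : 0 ≤ C) : ‖f‖ ≤ C ↔ F.CB k (fn f) C := by
  change ‖jet f‖ ≤ C ↔ _
  simp only [pi_norm_le_iff_of_nonneg hC, BoundedContinuousFunction.norm_le hC, jet_apply]
  exact ⟨fun h w hw => h ⟨w, hw⟩, fun h w => h w.1 w.2⟩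

theorem CB (f : B F k N) : F.CB k (fn f) ‖f‖ := (norm_le (norm_nonneg f)).1 le_rfl

/-- continuous linear maps between the spaces `B` -/
def mkL (Λ : (M → N) → M → N') (K : ℝ) (hK : 0 ≤ K) (h1 : ∀ f, F.Cb f → F.Cb (Λ f))
    (h2 : ∀ f g, Sm I f → Sm I g → Λ (f + g) = Λ f + Λ g)
    (h3 : ∀ (c : ℝ) f, Sm I f → Λ (c • f) = c • Λ f)
    (h4 : ∀ f C, Sm I f → 0 ≤ C → F.CB k f C → F.CB j (Λ f) (K * C)) : B F k N →L[ℝ] B F j N' :=
  LinearMap.mkContinuous
    { toFun := fun f => mk j (Λ (fn f)) (h1 _ f.cb)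
      map_add' := fun f g => fn_inj (h2 _ _ f.sm g.sm)
      map_smul' := fun c f => fn_inj (h3 c _ f.sm) } K
    fun f => (norm_le (by positivity)).2 (h4 _ _ f.sm (norm_nonneg f) f.CB)

/-- inclusion -/
def incl (h : j ≤ k) : B F k N →L[ℝ] B F j N :=
  mkL id 1 zero_le_one (fun _ h => h) (fun _ _ _ _ => rfl) (fun _ _ _ => rfl)
    fun _ _ _ _ hf => by simpa using CB_of_le hf h

/-- derivative -/
def D (a : ι) : B F (k + 1) N →L[ℝ] B F k N :=
  mkL (F.D a) 1 zero_le_one (fun _ h => Cb_D h a) (fun _ _ hf hg => F.D_add hf hg a)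
    (fun c _ hf => F.D_smul hf c a) fun _ _ _ _ hf => by simpa using CB_D hf a

/-- constants -/
def const : N →L[ℝ] B F k N :=
  LinearMap.mkContinuous
    { toFun := fun c => mk k (fun _ => c) (Cb_const c)
      map_add' := fun _ _ => rfl
      map_smul' := fun _ _ => rfl } 1
    fun c => (norm_le (by positivity)).2 (by simpa using CB_const k c)

/-- evaluation -/
def ev (x : M) : B F k N →L[ℝ] N :=
  LinearMap.mkContinuous ((LinearMap.proj x).comp fn) 1 fun f => by simpa using CB_bound f.CB x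

/-- pointwise bilinear maps -/
def bil (β : N →L[ℝ] N' →L[ℝ] N'') : B F k N →L[ℝ] B F k N' →L[ℝ] B F k N'' :=
  LinearMap.mkContinuous₂
    (LinearMap.mk₂ ℝ (fun f g => mk k (fun x => β (fn f x) (fn g x)) (Cb_bil β f.cb g.cb))
      (fun _ _ _ => fn_inj (funext fun x => by simp))
      (fun _ _ _ => fn_inj (funext fun x => by simp))
      (fun _ _ _ => fn_inj (funext fun x => by simp))
      (fun _ _ _ => fn_inj (funext fun x => by simp))) (2 ^ (k + 1) * ‖β‖)
    fun f g => (norm_le (by positivity)).2 (by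
      simpa using CB_bil β f.sm g.sm f.CB g.CB)

/-- pointwise linear maps -/
def clm (L : N →L[ℝ] N') : B F k N →L[ℝ] B F k N' :=
  mkL (fun f x => L (f x)) ‖L‖ (norm_nonneg L) (fun _ h => Cb_clm L h)
    (fun _ _ _ _ => funext fun x => by simp) (fun _ _ _ => funext fun x => by simp)
    fun _ _ hf _ h => CB_clm L hf h

/-- operator valued functions as operators with values in functions -/
def swap : B F k (T →L[ℝ] N) →L[ℝ] T →L[ℝ] B F k N :=
  ((bil (ContinuousLinearMap.id ℝ (T →L[ℝ] N))).flip.comp const).flip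

@[simp] theorem fn_incl (h : j ≤ k) (f : B F k N) : fn (incl h f) = fn f := rfl
@[simp] theorem fn_D (a : ι) (f : B F (k + 1) N) : fn (D a f) = F.D a (fn f) := rfl
@[simp] theorem fn_const (c : N) : fn (const c : B F k N) = fun _ => c := rfl
@[simp] theorem ev_apply (x : M) (f : B F k N) : ev x f = fn f x := rfl
@[simp] theorem fn_bil (β : N →L[ℝ] N' →L[ℝ] N'') (f : B F k N) (g : B F k N') :
    fn (bil β f g) = fun x => β (fn f x) (fn g x) := rfl
@[simp] theorem fn_clm (L : N →L[ℝ] N') (f : B F k N) : fn (clm L f) = fun x => L (fn f x) := rfl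
@[simp] theorem fn_swap (f : B F k (T →L[ℝ] N)) (v : T) : fn (swap f v) = fun x => fn f x v := rfl

end B

open Classical in
/-- a function as an element of `B` (zero if it is not `Cb`) -/
def toB (F : Pre I M ι) (k : ℕ) (f : M → N) : B F k N := if h : F.Cb f then B.mk k f h else 0

theorem toB_eq {f : M → N} (h : F.Cb f) : toB F k f = B.mk k f h := dif_pos h

theorem fn_toB {f : M → N} (h : F.Cb f) : B.fn (toB F k f) = f := by rw [toB_eq h]; rfl

theorem toB_fn (f : B F k N) : toB F k (B.fn f) = f := B.fn_inj (fn_toB f.cb)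

theorem eq_toB {f : M → N} {g : B F k N} (h : B.fn g = f) : g = toB F k f := by rw [← h, toB_fn]

variable {O : Set T} {f : T → M → N}

theorem JS.sm (h : JS I O f) {t : T} (ht : t ∈ O) : Sm I (f t) := fun x => (h t ht x).right

theorem JS.pd (h : JS I O f) : JS I O (pd f) := fun t ht x => (h t ht x).pd

theorem JS.D (h : JS I O f) (a : ι) : JS I O fun t => F.D a (f t) :=
  fun t ht x => (h t ht x).dv (F.sm a x)

theorem JS.Dw (w : List ι) : ∀ {f : T → M → N}, JS I O f → JS I O fun t => F.Dw w (f t) := by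
  induction w with
  | nil => exact fun h => h
  | cons a w ih => exact fun h => ih (h.D a)

variable [I.Boundaryless]

theorem JS.pd_Dw (w : List ι) {t : T} (ht : t ∈ O) : ∀ {f : T → M → N}, JS I O f →
    Prm93.pd (fun s => F.Dw w (f s)) t = F.Dw w (Prm93.pd f t) := by
  induction w with
  | nil => exact fun _ => rfl
  | cons a w ih =>
    intro f h
    have : Prm93.pd (fun s => F.D a (f s)) t = F.D a (Prm93.pd f t) :=
      funext fun x => (h t ht x).pd_dv (F.e a)
    exact (ih (h.D a)).trans (by rw [this]; rfl)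

theorem JS.hasFDerivAt_toB (hO : IsOpen O) (h : JS I O f) (h1 : ∀ t ∈ O, F.Cb (f t))
    (h2 : ∀ t ∈ O, F.Cb (Prm93.pd f t)) {t : T} (ht : t ∈ O)
    (hc : ContinuousAt (fun s => toB F k (Prm93.pd f s)) t) :
    HasFDerivAt (fun s => toB F k (f s)) (B.swap (toB F k (Prm93.pd f t))) t := by
  rw [hasFDerivAt_iff_isLittleO, Asymptotics.isLittleO_iff]
  intro ε hε
  obtain ⟨r, hr, hb⟩ := Metric.eventually_nhds_iff_ball.1
    ((Metric.tendsto_nhds.1 hc ε hε).and (hO.mem_nhds ht))
  filter_upwards [Metric.ball_mem_nhds t hr] with s hs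
  refine (B.norm_le (by positivity)).2 fun w hw x => ?_
  have key := (convex_ball t r).norm_image_sub_le_of_norm_hasFDerivWithin_le'
    (f := fun s => F.Dw w (f s) x) (f' := fun s => F.Dw w (Prm93.pd f s) x)
    (φ := F.Dw w (Prm93.pd f t) x) (C := ε)
    (fun s hs => by
      have := (JS.Dw (F := F) w h s (hb s hs).2 x).hasFDerivAt
      rw [JS.pd_Dw w (hb s hs).2 h] at this
      exact this.hasFDerivWithinAt)
    (fun s hs => by
      have := (B.norm_le hε.le).1 ((dist_eq_norm _ _).symm.trans_le (hb s hs).1.le) w hw x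
      rwa [← B.jet_apply _ ⟨w, hw⟩, map_sub, Pi.sub_apply, BoundedContinuousFunction.sub_apply,
        B.jet_apply, B.jet_apply, fn_toB (h2 s (hb s hs).2), fn_toB (h2 t ht)] at this)
    (Metric.mem_ball_self hr) hs
  rw [← B.jet_apply _ ⟨w, hw⟩, map_sub, map_sub]
  simp only [Pi.sub_apply, BoundedContinuousFunction.sub_apply, B.jet_apply, B.fn_swap,
    fn_toB (h1 s (hb s hs).2), fn_toB (h1 t ht), fn_toB (h2 t ht)]
  have := congrFun (Dw_clm (F := F) (ContinuousLinearMap.apply ℝ N (s - t)) w (h.pd.sm ht)) x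
  simp only [ContinuousLinearMap.apply_apply] at this
  rw [this]; exact key

/-- all derivatives in the parameter up to order `n` are `Cb`, the last one is continuous -/
def PF (F : Pre I M ι) (k : ℕ) (O : Set T) : ℕ → ∀ {N : Type} [NormedAddCommGroup N]
    [NormedSpace ℝ N], (T → M → N) → Prop
  | 0, _, _, _, f => (∀ t ∈ O, F.Cb (f t)) ∧ ContinuousOn (fun t => toB F k (f t)) O
  | n + 1, _, _, _, f => (∀ t ∈ O, F.Cb (f t)) ∧ PF F k O n (pd f)

omit [I.Boundaryless] in
theorem PF.cb : ∀ {n : ℕ}, PF F k O n f → ∀ t ∈ O, F.Cb (f t)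
  | 0, h => h.1
  | _ + 1, h => h.1

theorem PF.contDiffOn (hO : IsOpen O) (n : ℕ) : ∀ {N : Type} [NormedAddCommGroup N]
    [NormedSpace ℝ N] {f : T → M → N}, JS I O f → PF F k O n f →
      ContDiffOn ℝ n (fun t => toB F k (f t)) O := by
  induction n with
  | zero => exact fun _ h => by simpa using h.2
  | succ n ih =>
    intro N _ _ f h hp
    have h1 := ih h.pd hp.2
    rw [Nat.cast_succ, contDiffOn_succ_iff_hasFDerivWithinAt_of_uniqueDiffOn hO.uniqueDiffOn]
    refine ⟨by simp, fun t => B.swap (toB F k (pd f t)), B.swap.contDiff.comp_contDiffOn h1,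
      fun t ht => (h.hasFDerivAt_toB hO hp.1 hp.2.cb ht ?_).hasFDerivWithinAt⟩
    exact h1.continuousOn.continuousAt (hO.mem_nhds ht)

omit [I.Boundaryless]

variable (F) in
/-- a jointly smooth family of `Cb` functions, constant in the parameter outside `K` -/
structure Fam (K : Set M) (O : Set T) (f : T → M → N) : Prop where
  js : JS I O f
  cb : ∀ t ∈ O, F.Cb (f t)
  out : ∀ t ∈ O, ∀ s ∈ O, ∀ x ∉ K, f t x = f s x

theorem JS.fam [CompactSpace M] (h : JS I O f) : Fam F univ O f :=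
  ⟨h, fun _ ht => Cb_of_compact (h.sm ht), fun _ _ _ _ x hx => absurd (mem_univ x) hx⟩

variable [T2Space M] {K : Set M}

theorem Fam.pd_out (hO : IsOpen O) (h : Fam F K O f) {t : T} (ht : t ∈ O) {x : M} (hx : x ∉ K) :
    pd f t x = 0 := by
  have : (fun s => f s x) =ᶠ[𝓝 t] fun _ => f t x :=
    mem_of_superset (hO.mem_nhds ht) fun s hs => h.out s hs t ht x hx
  rw [pd, this.fderiv_eq]; simp

theorem Fam.pd_hcs (hK : IsCompact K) (hO : IsOpen O) (h : Fam F K O f) {t : T} (ht : t ∈ O) :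
    HasCompactSupport (pd f t) := HasCompactSupport.intro hK fun _ hx => h.pd_out hO ht hx

theorem Fam.pd (hK : IsCompact K) (hO : IsOpen O) (h : Fam F K O f) : Fam F K O (pd f) :=
  ⟨h.js.pd, fun _ ht => Cb_of_hcs (h.js.pd.sm ht) (h.pd_hcs hK hO ht),
    fun _ ht _ hs _ hx => by rw [h.pd_out hO ht hx, h.pd_out hO hs hx]⟩

theorem Fam.continuousOn (hK : IsCompact K) (h : Fam F K O f) :
    ContinuousOn (fun t => toB F k (f t)) O := by
  intro t ht
  refine Metric.tendsto_nhds.2 fun ε hε => ?_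
  have h1 : ∀ w : Wd ι k, ∀ᶠ s in 𝓝 t, ∀ x ∈ K,
      ‖F.Dw w.1 (f s) x - F.Dw w.1 (f t) x‖ ≤ ε / 2 := fun w =>
    hK.eventually_forall_of_forall_eventually fun x _ => by
      have a1 := (JS.Dw (F := F) w.1 h.js t ht x).continuousAt
      have a2 := (JAt.of_fixed (t := t) ((sm_Dw (F := F) (h.js.sm ht) w.1) x)).continuousAt
      exact (a1.sub a2).norm.eventually_le_const (by simpa using hε)
  filter_upwards [nhdsWithin_le_nhds (eventually_all.2 h1), self_mem_nhdsWithin] with s hs hsO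
  rw [dist_eq_norm]
  refine ((B.norm_le (by positivity)).2 fun w hw x => ?_).trans_lt (half_lt_self hε)
  rw [← B.jet_apply _ ⟨w, hw⟩, map_sub, Pi.sub_apply, BoundedContinuousFunction.sub_apply,
    B.jet_apply, B.jet_apply, fn_toB (h.cb s hsO), fn_toB (h.cb t ht)]
  by_cases hx : x ∈ K
  · exact hs ⟨w, hw⟩ x hx
  · rw [Dw_congr w (mem_of_superset (hK.isClosed.isOpen_compl.mem_nhds hx)
      fun y hy => h.out s hsO t ht y hy), sub_self, norm_zero]
    positivity

theorem Fam.pf (hK : IsCompact K) (hO : IsOpen O) (n : ℕ) : ∀ {N : Type} [NormedAddCommGroup N]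
    [NormedSpace ℝ N] {f : T → M → N}, Fam F K O f → PF F k O n f := by
  induction n with
  | zero => exact fun h => ⟨h.cb, h.continuousOn hK⟩
  | succ n ih => exact fun h => ⟨h.cb, ih (h.pd hK hO)⟩

variable [I.Boundaryless]

/-- **PARAM** -/
theorem Fam.contDiffOn (hK : IsCompact K) (hO : IsOpen O) (h : Fam F K O f) :
    ContDiffOn ℝ ∞ (fun t => toB F k (f t)) O :=
  contDiffOn_infty.2 fun n => PF.contDiffOn hO n h.js (h.pf hK hO n)

theorem Fam.hasFDerivAt (hK : IsCompact K) (hO : IsOpen O) (h : Fam F K O f) {t : T} (ht : t ∈ O) :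
    HasFDerivAt (fun s => toB F k (f s)) (B.swap (toB F k (Prm93.pd f t))) t :=
  h.js.hasFDerivAt_toB hO h.cb (h.pd hK hO).cb ht
    (((h.pd hK hO).continuousOn hK).continuousAt (hO.mem_nhds ht))

end Crest.Agent.X212.Prm93
end
end

-- ▼ part X212/Prm93/H

/-!
# X212 / Prm93 / H (helper93): operators on `H` depending smoothly on a parameter

`SB F O f` : `t ↦ f t` is a smooth map from `O` to every `B F k N`.  Closure properties and
`SB.mulH`, `SB.smulH`, `SB.opH`, `SB.bilH`, `SB.toH`, `SB.lift_op` (family of frames).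
-/

set_option autoImplicit false
set_option linter.unusedSectionVars false
noncomputable section
open scoped Manifold ContDiff Topology InnerProductSpace
open MeasureTheory Set Filter Function

namespace Crest.Agent.X212.Prm93
open An An.Pre Sob92

variable {E : Type} [NormedAddCommGroup E] [NormedSpace ℝ E] [FiniteDimensional ℝ E]
  [MeasurableSpace E] [BorelSpace E]
  {HM : Type} [TopologicalSpace HM] {I : ModelWithCorners ℝ E HM}
  {M : Type} [TopologicalSpace M] [ChartedSpace HM M] [IsManifold I ∞ M]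
  [MeasurableSpace M] {ι ι' : Type} [Fintype ι] [Fintype ι']
  {N N' N'' : Type} [NormedAddCommGroup N] [NormedSpace ℝ N] [NormedAddCommGroup N']
  [NormedSpace ℝ N'] [NormedAddCommGroup N''] [NormedSpace ℝ N'']
  {U V W : Type} [NormedAddCommGroup U] [InnerProductSpace ℝ U]
  [NormedAddCommGroup V] [InnerProductSpace ℝ V] [NormedAddCommGroup W] [InnerProductSpace ℝ W]
  {T : Type} [NormedAddCommGroup T] [NormedSpace ℝ T] {F : Pre I M ι} {k j l : ℕ} {O : Set T}

variable (F) in
/-- a smooth family of `Cb` functions -/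
structure SB (O : Set T) (f : T → M → N) : Prop where
  cb : ∀ t ∈ O, F.Cb (f t)
  sm : ∀ k, ContDiffOn ℝ ∞ (fun t => toB F k (f t)) O

theorem Fam.sb [T2Space M] [I.Boundaryless] {K : Set M} {f : T → M → N} (hK : IsCompact K)
    (hO : IsOpen O) (h : Fam F K O f) : SB F O f := ⟨h.cb, fun _ => h.contDiffOn hK hO⟩

theorem JS.sb [T2Space M] [I.Boundaryless] [CompactSpace M] {f : T → M → N} (hO : IsOpen O)
    (h : JS I O f) : SB F O f := h.fam.sb isCompact_univ hO

namespace SB
variable {f f' : T → M → N} {g : T → M → N'}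

theorem of_map (G : ∀ k, T → B F k N) (hG : ∀ k, ContDiffOn ℝ ∞ (G k) O)
    (e : ∀ k, ∀ t ∈ O, B.fn (G k t) = f t) : SB F O f :=
  ⟨fun t ht => e 0 t ht ▸ (G 0 t).cb, fun k => (hG k).congr fun t ht => (eq_toB (e k t ht)).symm⟩

theorem mono (h : SB F O f) {O' : Set T} (hO : O' ⊆ O) : SB F O' f :=
  ⟨fun t ht => h.cb t (hO ht), fun k => (h.sm k).mono hO⟩

theorem congr (h : SB F O f) (e : ∀ t ∈ O, f' t = f t) : SB F O f' :=
  of_map _ h.sm fun _ t ht => by rw [fn_toB (h.cb t ht), e t ht]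

theorem fixed {u : M → N} (hu : F.Cb u) : SB F O fun _ => u :=
  ⟨fun _ _ => hu, fun _ => contDiffOn_const⟩

theorem par {c : T → N} (hc : ContDiffOn ℝ ∞ c O) : SB F O fun t (_ : M) => c t :=
  of_map (fun _ t => B.const (c t)) (fun _ => B.const.contDiff.comp_contDiffOn hc) fun _ _ _ => rfl

theorem reparam {T' : Type} [NormedAddCommGroup T'] [NormedSpace ℝ T'] {φ : T' → T} {O' : Set T'}
    (h : SB F O f) (hφ : ContDiffOn ℝ ∞ φ O') (hm : MapsTo φ O' O) : SB F O' fun s => f (φ s) :=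
  ⟨fun _ hs => h.cb _ (hm hs), fun k => (h.sm k).comp hφ hm⟩

theorem add (h : SB F O f) (h' : SB F O f') : SB F O fun t x => f t x + f' t x :=
  of_map _ (fun k => (h.sm k).add (h'.sm k)) fun _ t ht => by
    rw [map_add, fn_toB (h.cb t ht), fn_toB (h'.cb t ht)]; rfl

theorem sub (h : SB F O f) (h' : SB F O f') : SB F O fun t x => f t x - f' t x :=
  of_map _ (fun k => (h.sm k).sub (h'.sm k)) fun _ t ht => by
    rw [map_sub, fn_toB (h.cb t ht), fn_toB (h'.cb t ht)]; rfl

theorem clm (L : N →L[ℝ] N') (h : SB F O f) : SB F O fun t x => L (f t x) :=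
  of_map _ (fun k => (B.clm L).contDiff.comp_contDiffOn (h.sm k)) fun _ t ht => by
    simp only [comp_apply, B.fn_clm, fn_toB (h.cb t ht)]

theorem neg (h : SB F O f) : SB F O fun t x => -f t x := h.clm (-ContinuousLinearMap.id ℝ N)

theorem bil (β : N →L[ℝ] N' →L[ℝ] N'') (h : SB F O f) (h' : SB F O g) :
    SB F O fun t x => β (f t x) (g t x) :=
  of_map _ (fun k => ((B.bil β).contDiff.comp_contDiffOn (h.sm k)).clm_apply (h'.sm k))
    fun _ t ht => by simp only [comp_apply, B.fn_bil, fn_toB (h.cb t ht), fn_toB (h'.cb t ht)]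

theorem smul {c : T → M → ℝ} (hc : SB F O c) (h : SB F O f) : SB F O fun t x => c t x • f t x :=
  bil (ContinuousLinearMap.lsmul ℝ ℝ) hc h

theorem mul {𝔸 : Type} [NormedRing 𝔸] [NormedAlgebra ℝ 𝔸] {u v : T → M → 𝔸} (hu : SB F O u)
    (hv : SB F O v) : SB F O fun t x => u t x * v t x := bil (ContinuousLinearMap.mul ℝ 𝔸) hu hv

theorem app {A : T → M → N →L[ℝ] N'} (hA : SB F O A) (h : SB F O f) :
    SB F O fun t x => A t x (f t x) := bil (ContinuousLinearMap.id ℝ (N →L[ℝ] N')) hA h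

theorem comp {A : T → M → N' →L[ℝ] N''} {A' : T → M → N →L[ℝ] N'} (hA : SB F O A)
    (hA' : SB F O A') : SB F O fun t x => (A t x).comp (A' t x) :=
  bil (ContinuousLinearMap.compL ℝ N N' N'') hA hA'

theorem D (h : SB F O f) (a : ι) : SB F O fun t => F.D a (f t) :=
  of_map _ (fun k => (B.D a).contDiff.comp_contDiffOn (h.sm (k + 1))) fun _ t ht => by
    simp only [comp_apply, B.fn_D, fn_toB (h.cb t ht)]

theorem fsum {κ : Type*} (s : Finset κ) {u : κ → T → M → N} (h : ∀ i ∈ s, SB F O (u i)) :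
    SB F O fun t x => ∑ i ∈ s, u i t x :=
  of_map _ (fun k => ContDiffOn.sum fun i hi => (h i hi).sm k) fun _ t ht => by
    rw [map_sum]; funext x; rw [Finset.sum_apply]
    exact Finset.sum_congr rfl fun i hi => by rw [fn_toB ((h i hi).cb t ht)]

theorem sum {κ : Type*} [Fintype κ] {u : κ → T → M → N} (h : ∀ i, SB F O (u i)) :
    SB F O fun t x => ∑ i, u i t x := fsum _ fun i _ => h i

theorem ev (h : SB F O f) (x : M) : ContDiffOn ℝ ∞ (fun t => f t x) O :=
  ((B.ev x).contDiff.comp_contDiffOn (h.sm 0)).congr fun t ht => by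
    simp only [comp_apply, B.ev_apply, fn_toB (h.cb t ht)]

/-- locally uniform bounds -/
theorem bound (h : SB F O f) (k : ℕ) {t : T} (ht : t ∈ O) :
    ∃ C, ∀ᶠ s in 𝓝[O] t, F.CB k (f s) C := by
  refine ⟨‖toB F k (f t)‖ + 1, ?_⟩
  filter_upwards [((h.sm k).continuousOn t ht).norm.eventually_le_const (lt_add_one _),
    self_mem_nhdsWithin] with s hs hsO
  rw [← fn_toB (k := k) (h.cb s hsO)]
  exact (B.norm_le (by positivity)).1 hs

end SB

variable [T2Space M] [BorelSpace M] [SecondCountableTopology M]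
  {p : M → V →L[ℝ] V} {q : M → W →L[ℝ] W} {r : M → U →L[ℝ] U}

variable (F k p) in
/-- `mulH` as a continuous linear map of the coefficient -/
def mulB : B F k (V →L[ℝ] W) →L[ℝ] F.H k p →L[ℝ] F.H k (triv M W) :=
  LinearMap.mkContinuous
    { toFun := fun f => F.mulH k p (triv M W) (B.fn f)
      map_add' := fun f g => by rw [map_add, mulH_add f.cb (Maps.triv _) g.cb (Maps.triv _)]
      map_smul' := fun c f => by rw [map_smul, mulH_smul c f.cb (Maps.triv _)]; rfl } (cK ι k)
    fun f => by simpa using norm_mulH_le (p := p) f.sm f.CB (Maps.triv _)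

theorem mulB_apply (f : B F k (V →L[ℝ] W)) : mulB F k p f = F.mulH k p (triv M W) (B.fn f) := rfl

variable (F k q) in
/-- the projection onto the bundle `q` -/
abbrev prH : F.H k (triv M W) →L[ℝ] F.H k q := F.mulH k (triv M W) q q

theorem prH_mulH (hq : F.Cb q) (hi : ∀ x v, q x (q x v) = q x v) {f : M → V →L[ℝ] W} (hf : F.Cb f)
    (hm : Maps p q f) : F.mulH k p q f = prH F k q ∘L F.mulH k p (triv M W) f :=
  ContinuousLinearMap.ext fun x => by
    rw [ContinuousLinearMap.comp_apply, ← fg_mulH hf hm, proj_fg hq hi]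

theorem SB.mulH {f : T → M → V →L[ℝ] W} (h : SB F O f) (hq : F.Cb q)
    (hi : ∀ x v, q x (q x v) = q x v) (hm : ∀ t ∈ O, Maps p q (f t)) :
    ContDiffOn ℝ ∞ (fun t => F.mulH k p q (f t)) O :=
  ((contDiffOn_const (c := prH F k q)).clm_comp
    ((mulB F k p).contDiff.comp_contDiffOn (h.sm k))).congr fun t ht => by
      rw [prH_mulH hq hi (h.cb t ht) (hm t ht), comp_apply, mulB_apply, fn_toB (h.cb t ht)]

theorem SB.smulH {f : T → M → ℝ} (h : SB F O f) (hp : F.Cb p) (hi : ∀ x v, p x (p x v) = p x v) :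
    ContDiffOn ℝ ∞ (fun t => smulH F k p (f t)) O :=
  (h.smul (SB.fixed (Cb_const (ContinuousLinearMap.id ℝ V)))).mulH hp hi
    fun _ _ x v hv => by simp [hv]

theorem opH_eq' {σ : ι → M → V →L[ℝ] W} {C : M → V →L[ℝ] W} (hσ : ∀ a, F.Cb (σ a)) (hC : F.Cb C)
    (hq : ∀ a x v, q x (σ a x v) = σ a x v) (hm : Maps p q C) : F.opH k p q σ C =
      ∑ a, F.mulH k (triv M V) q (σ a) ∘L DH F k p a + F.mulH k p q C ∘L F.incl (k + 1) k p :=
  (rep_opH hσ hC hq hm).unique (RepT_add (RepT_sum Finset.univ fun a _ =>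
    RepT_comp (rep_mulH (hσ a) (Maps.of_left (hq a))) (rep_DH a))
    (RepT_comp (rep_mulH hC hm) (rep_incl k.le_succ)))

theorem SB.opH {σ : ι → T → M → V →L[ℝ] W} {C : T → M → V →L[ℝ] W} (hσ : ∀ a, SB F O (σ a))
    (hC : SB F O C) (hq : F.Cb q) (hi : ∀ x v, q x (q x v) = q x v)
    (hqσ : ∀ t ∈ O, ∀ a x v, q x (σ a t x v) = σ a t x v) (hm : ∀ t ∈ O, Maps p q (C t)) :
    ContDiffOn ℝ ∞ (fun t => F.opH k p q (fun a => σ a t) (C t)) O :=
  ((ContDiffOn.sum fun a _ => ((hσ a).mulH hq hi fun t ht =>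
      Maps.of_left (p := triv M V) (hqσ t ht a)).clm_comp (contDiffOn_const (c := DH F k p a))).add
    ((hC.mulH hq hi hm).clm_comp (contDiffOn_const (c := F.incl (k + 1) k p)))).congr
    fun t ht => opH_eq' (fun a => (hσ a).cb t ht) (hC.cb t ht) (hqσ t ht) (hm t ht)

/-- `bilH` as a continuous linear map of the coefficient -/
def bilB {S : ℝ} (hS : Sup F S) (h : Lev k j l) (p : M → V →L[ℝ] V) (q : M → W →L[ℝ] W) :
    B F k (V →L[ℝ] W →L[ℝ] U) →L[ℝ] F.H k p →L[ℝ] F.H j q →L[ℝ] F.H l (triv M U) :=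
  LinearMap.mkContinuous
    { toFun := fun f => F.bilH k j p q (triv M U) l (B.fn f)
      map_add' := fun f g => clm_ext fun u => RepT_eq
        (Rep₂_left (rep_bilH hS h (f + g).cb (Maps₂.triv _)) u)
        (RepT_add (Rep₂_left (rep_bilH hS h f.cb (Maps₂.triv _)) u)
          (Rep₂_left (rep_bilH hS h g.cb (Maps₂.triv _)) u)) fun _ => rfl
      map_smul' := fun c f => clm_ext fun u => RepT_eq
        (Rep₂_left (rep_bilH hS h (c • f).cb (Maps₂.triv _)) u)
        (RepT_smul c (Rep₂_left (rep_bilH hS h f.cb (Maps₂.triv _)) u)) fun _ => rfl }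
    (√(2 * |S|) * cK ι l * cK ι k)
    fun f => by simpa [cB] using (rep_bilH' (p := p) (q := q) hS h f.sm f.CB (Maps₂.triv _)).2

theorem SB.bilH {S : ℝ} (hS : Sup F S) (hl : Lev k j l) {β : T → M → V →L[ℝ] W →L[ℝ] U}
    (h : SB F O β) (hr : F.Cb r) (hi : ∀ x v, r x (r x v) = r x v)
    (hm : ∀ t ∈ O, Maps₂ p q r (β t)) : ContDiffOn ℝ ∞ (fun t => F.bilH k j p q r l (β t)) O := by
  refine ((contDiffOn_const (c := ContinuousLinearMap.compL ℝ (F.H j q) _ _ (prH F l r))).clm_comp
    ((bilB hS hl p q).contDiff.comp_contDiffOn (h.sm k))).congr fun t ht => clm_ext fun u => ?_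
  refine RepT_eq (Rep₂_left (rep_bilH hS hl (h.cb t ht) (hm t ht)) u)
    (RepT_comp (rep_mulH hr (Maps.of_left hi))
      (Rep₂_left (rep_bilH hS hl (toB F k (β t)).cb (Maps₂.triv _)) u)) fun v => funext fun x => ?_
  rw [fn_toB (h.cb t ht)]
  exact (hm t ht x _ _ (u.2.2.2 x) (v.2.2.2 x)).symm

/-- families of sections with support where `χ = 1` -/
theorem SB.toH {s : T → Sec I p} (h : SB F O fun t => (s t).1) (hp : F.Cb p)
    (hi : ∀ x v, p x (p x v) = p x v) {χ : M → ℝ} (hχ : Sm I χ) (hc : HasCompactSupport χ)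
    (h1 : ∀ t ∈ O, ∀ x, χ x • (s t).1 x = (s t).1 x) :
    ContDiffOn ℝ ∞ (fun t => F.toH k p (s t)) O := by
  have h2 := h.clm (ContinuousLinearMap.smulRightL ℝ ℝ V (ContinuousLinearMap.id ℝ ℝ))
  have hm : ∀ t ∈ O, Maps (triv M ℝ) p fun x =>
      ContinuousLinearMap.smulRightL ℝ ℝ V (ContinuousLinearMap.id ℝ ℝ) ((s t).1 x) :=
    fun t _ x c _ => by simp [(s t).2.2.2 x]
  refine ((h2.mulH hp hi hm).clm_apply
    (contDiffOn_const (c := F.toH k (triv M ℝ) ⟨χ, mem_triv hχ hc⟩))).congr fun t ht => ?_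
  exact (RepT_toH' (rep_mulH (h2.cb t ht) (hm t ht)) ⟨χ, mem_triv hχ hc⟩ (s t)
    (funext fun x => h1 t ht x)).symm

theorem SB.toH_compact [CompactSpace M] {s : T → Sec I p} (h : SB F O fun t => (s t).1)
    (hp : F.Cb p) (hi : ∀ x v, p x (p x v) = p x v) :
    ContDiffOn ℝ ∞ (fun t => F.toH k p (s t)) O :=
  h.toH hp hi (χ := fun _ => 1) contMDiff_const (HasCompactSupport.of_compactSpace _)
    fun _ _ _ => one_smul _ _

/-! ### families of frames -/

omit [T2Space M] [BorelSpace M] [SecondCountableTopology M] in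
/-- the frame of `F'` in terms of the frame of `F` -/
def Mix (F : Pre I M ι) (F' : Pre I M ι') (A : ι' → ι → M → ℝ) : Prop :=
  ∀ a x, F'.e a x = ∑ b, A a b x • F.e b x

section mix
omit [T2Space M] [BorelSpace M] [SecondCountableTopology M]
variable {F' : Pre I M ι'} {A : ι' → ι → M → ℝ}

theorem Mix.D (h : Mix F F' A) (a : ι') (u : M → N) :
    F'.D a u = fun x => ∑ b, A a b x • F.D b u x := by
  funext x
  simp only [D_def, dv, h a x, map_sum, map_smul]
  rfl

theorem Mix.op (h : Mix F F' A) (σ : ι' → M → V →L[ℝ] W) (C : M → V →L[ℝ] W) :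
    F'.op σ C = F.op (fun b x => ∑ a, A a b x • σ a x) C := by
  funext u x
  simp only [Pre.op, h.D, map_sum, map_smul, sum_apply, smul_apply]
  rw [Finset.sum_comm]

theorem SB.D' {G : T → Pre I M ι'} {A : ι' → ι → T → M → ℝ} {f : T → M → N}
    (hG : ∀ t ∈ O, Mix F (G t) fun a b => A a b t) (hA : ∀ a b, SB F O (A a b)) (h : SB F O f)
    (a : ι') : SB F O fun t => (G t).D a (f t) :=
  (SB.sum fun b => (hA a b).smul (h.D b)).congr fun t ht => (hG t ht).D a (f t)

end mix

/-- first order operators of a family of frames, on the fixed scale of `F` -/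
theorem SB.lift_op {G : T → Pre I M ι'} {A : ι' → ι → T → M → ℝ}
    (hG : ∀ t ∈ O, Mix F (G t) fun a b => A a b t) (hA : ∀ a b, SB F O (A a b))
    {σ : ι' → T → M → V →L[ℝ] W} {C : T → M → V →L[ℝ] W} (hσ : ∀ a, SB F O (σ a))
    (hC : SB F O C) (hq : F.Cb q) (hi : ∀ x v, q x (q x v) = q x v)
    (hqσ : ∀ t ∈ O, ∀ a x v, q x (σ a t x v) = σ a t x v) (hm : ∀ t ∈ O, Maps p q (C t)) :
    ContDiffOn ℝ ∞ (fun t => F.lift (k + 1) k p q ((G t).op (fun a => σ a t) (C t))) O :=
  (SB.opH (σ := fun b t x => ∑ a, A a b t x • σ a t x)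
    (fun b => SB.sum fun a => (hA a b).smul (hσ a)) hC hq hi
    (fun t ht b x v => by simp [hqσ t ht]) hm).congr fun t ht => by rw [(hG t ht).op]; rfl

theorem Mix.rep_op {F' : Pre I M ι'} {A : ι' → ι → M → ℝ} (h : Mix F F' A)
    (hA : ∀ a b, F.Cb (A a b)) {σ : ι' → M → V →L[ℝ] W} {C : M → V →L[ℝ] W}
    (hσ : ∀ a, F.Cb (σ a)) (hC : F.Cb C) (hq : ∀ a x v, q x (σ a x v) = σ a x v)
    (hm : Maps p q C) : F.Rep (F.lift (k + 1) k p q (F'.op σ C)) (F'.op σ C) := by
  rw [h.op]
  exact rep_opH (fun b => Cb_sum _ fun a _ => Cb_smul (hA a b) (hσ a)) hC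
    (fun b x v => by simp [hq]) hm

end Crest.Agent.X212.Prm93
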